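import Vale.Agent.P088.TM.Q.H275E

/-!
# P088, stage 3: boundary models of arbitrary pairs (no class of equations)
-/

set_option linter.all false

open Bundle Manifold MeasureTheory Set Filter Topology
open scoped ContDiff

noncomputable section

namespace Vale.Agent.P088.R2.H509.S3

open Vale.Agent.P088 Vale.Agent.P088.EYM Vale.Agent.P088.TM
open Vale.Agent.P088.EYM.Q (IsMod)

universe u

/-- Existence of a model near `z` in solution coordinates, without equations. -/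
theorem bMod (n N : ℕ) [NeZero n] (L : LD n N) (D : Set (E n)) (j0 : Fin N) (hD : RelOpen D)
    (hL : L.Ok D) (S : E n → EndF N) (T : Fin n → E n → Fib N)
    (hS : ContDiffOn ℝ ∞ S D) (hSf : ∀ v, Sol L D (fun x => S x v)) (hT : ∀ a, Sol L D (T a))
    (z : E n) (hz : z ∈ D) (hzu : IsUnit (S z)) (hdet : (Jac (Xco j0 S T) z).det ≠ 0)
    (hcase : (0 < z 0 ∧ 0 < Xco j0 S T z 0) ∨
      (z 0 = 0 ∧ 0 < pd 0 (fun x => Xco j0 S T x 0) z ∧
        ∃ r > 0, ∀ x ∈ HB z r, x 0 = 0 → Xco j0 S T x 0 = 0)) :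
    ∃ (Y : E n → E n) (W : Model n N) (r₀ : ℝ), 0 < r₀ ∧ ∀ r, 0 < r → r ≤ r₀ →
      ∃ D₁ ⊆ D, RelOpen D₁ ∧ z ∈ D₁ ∧
        IsPull L W.toLD D₁ (HB (Xco j0 S T z) r) (Xco j0 S T) Y S ∧
        IsMod j0 W (HB (Xco j0 S T z) r) ∧
        ∀ x ∈ D₁, ∀ a, T a x = S x (W.c a (Xco j0 S T x)) := by
  -- the set where the frame is invertible
  set D0 : Set (E n) := {x | x ∈ D ∧ S x ∈ {t : EndF N | IsUnit t}} with hD0
  have hD0o : RelOpen D0 := bmodel_relOpen_preimage hD hS.continuousOn Units.isOpen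
  have hD0s : D0 ⊆ D := fun x hx => hx.1
  have hu0 : ∀ x ∈ D0, IsUnit (S x) := fun x hx => hx.2
  have hX : ContDiffOn ℝ ∞ (Xco j0 S T) D0 :=
    bmodel_Xco_smooth j0 (hS.mono hD0s) (fun a => (hT a).1.mono hD0s) hu0
  obtain ⟨Y, r₀, hr₀, hY⟩ := half_ift hD0o hX (z := z) ⟨hz, hzu⟩ hdet hcase
  obtain ⟨D1, hD1s, hD1o, hzD1, hdiff⟩ := hY r₀ hr₀ le_rfl
  have hD1D : D1 ⊆ D := hD1s.trans hD0s
  have hu1 : ∀ x ∈ D1, IsUnit (S x) := fun x hx => hu0 x (hD1s hx)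
  have hS1 : ContDiffOn ℝ ∞ S D1 := hS.mono hD1D
  have hL1 : L.Ok D1 := bmodel_ok_mono hL hD1D
  have hHB := bmodel_HB_relOpen (Xco j0 S T z) r₀
  obtain ⟨L', hL', hP⟩ := push_exists hD1o hHB hL1 hdiff hS1 hu1
  set W : Model n N := { toLD := L', c := fun a y => Ring.inverse (S (Y y)) (T a (Y y)) } with hW
  have hSY : ContDiffOn ℝ ∞ (fun y => S (Y y)) (HB (Xco j0 S T z) r₀) :=
    hS1.comp hdiff.smY hdiff.mapsY
  have hcs : ∀ a, ContDiffOn ℝ ∞ (W.c a) (HB (Xco j0 S T z) r₀) := fun a =>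
    smooth_eval (smooth_ringInverse hSY fun y hy => hu1 _ (hdiff.mapsY hy))
      (((hT a).1.mono hD1D).comp hdiff.smY hdiff.mapsY)
  have hTW : ∀ x ∈ D1, ∀ a, T a x = S x (W.c a (Xco j0 S T x)) := by
    intro x hx a
    simp only [hW]
    rw [hdiff.inv1 x hx]
    have h1 : S x * Ring.inverse (S x) = 1 := Ring.mul_inverse_cancel _ (hu1 x hx)
    have h2 : (S x * Ring.inverse (S x)) (T a x) = T a x := by
      rw [h1]
      rfl
    exact h2.symm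
  have hframe : ∀ v : Fib N, Sol L' (HB (Xco j0 S T z) r₀) (fun _ => v) := fun v =>
    bSol n N L L' D1 _ (Xco j0 S T) Y S hD1o hHB hL1 hL' hP (fun _ => v)
      (bmodel_sol_mono (hSf v) hD1D) contDiffOn_const
  have hsol : ∀ a, Sol L' (HB (Xco j0 S T z) r₀) (W.c a) := fun a =>
    bSol n N L L' D1 _ (Xco j0 S T) Y S hD1o hHB hL1 hL' hP (W.c a)
      (bmodel_sol_congr hD1o (bmodel_sol_mono (hT a) hD1D) fun x hx => (hTW x hx a).symm)
      (hcs a)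
  refine ⟨Y, W, r₀, hr₀, fun r hr hrr => ?_⟩
  have hsub : HB (Xco j0 S T z) r ⊆ HB (Xco j0 S T z) r₀ := fun y hy =>
    ⟨Metric.ball_subset_ball hrr hy.1, hy.2⟩
  set D2 : Set (E n) := {x | x ∈ D1 ∧ Xco j0 S T x ∈ Metric.ball (Xco j0 S T z) r} with hD2
  have hD2s : D2 ⊆ D1 := fun x hx => hx.1
  have hm : MapsTo (Xco j0 S T) D2 (HB (Xco j0 S T z) r) := fun x hx =>
    ⟨hx.2, (hdiff.mapsX hx.1).2⟩
  have hm' : MapsTo Y (HB (Xco j0 S T z) r) D2 := fun y hy =>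
    ⟨hdiff.mapsY (hsub hy), by rw [hdiff.inv2 y (hsub hy)]; exact hy.1⟩
  refine ⟨D2, hD2s.trans hD1D, ?_, ?_, ?_, ?_, ?_⟩
  · exact bmodel_relOpen_preimage hD1o hdiff.smX.continuousOn Metric.isOpen_ball
  · exact ⟨hzD1, Metric.mem_ball_self hr⟩
  · exact bmodel_pull_restrict hP hD2s hsub hm hm'
  · refine ⟨bmodel_ok_mono hL' hsub, fun v => bmodel_sol_mono (hframe v) hsub,
      fun a => bmodel_sol_mono (hsol a) hsub, fun a y hy => ?_⟩
    have h1 := hdiff.inv2 y (hsub hy)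
    have h2 := congrArg (fun w : E n => w a) h1
    exact h2
  · exact fun x hx a => hTW x (hD2s hx) a


/-- The model of a pair near a boundary point, of radius `r`, in the coordinates `e`. -/
structure BdM {n N : ℕ} [NeZero n] {M : Type u} (e : E n → M) (L : LD n N) (D₀ : Set (E n))
    (z : E n) (r : ℝ) (j0 : Fin N) (W : Model n N) (D : Set (E n)) (X Y : E n → E n)
    (S : E n → EndF N) (s : Fin N → M → Fib N) (t : Fin n → M → Fib N) : Prop where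
  rel : RelOpen D
  sub : D ⊆ D₀
  z0 : z 0 = 0
  rpos : 0 < r
  pull : IsPull L W.toLD D (HB z r) X Y S
  model : IsMod j0 W (HB z r)
  bd : ∀ y ∈ HB z r, y 0 = 0 → y ∈ D ∧ X y = y ∧ Y y = y ∧ S y = 1
  bdD : ∀ x ∈ D, x 0 = 0 → x ∈ HB z r
  frame : ∀ x ∈ D, ∀ v : Fib N, S x v = ∑ j, v j • s j (e x)
  coord : ∀ x ∈ D, ∀ a, t a (e x) = S x (W.c a (X x))

section One

variable {n N : ℕ} [NeZero n] {M : Type u}
  [TopologicalSpace M] [ChartedSpace (EuclideanHalfSpace n) M] [IsManifold (𝓡∂ n) ∞ M]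

variable [T2Space M] [CompactSpace M] [ConnectedSpace M] [MeasurableSpace M] [BorelSpace M]

/-- One model near a boundary point. -/
theorem pcSetup_one (P : One n N M) {e : E n → M} {L : LD n N} {D₀ : Set (E n)}
    (b : BC P e L D₀) (hbd : ((𝓡∂ n).boundary M).Nonempty) (j0 : Fin N)
    (z : E n) (r : ℝ) (s : Fin N → M → Fib N) (t : Fin n → M → Fib N) (hz : z 0 = 0)
    (hr : 0 < r) (hsub : HB z r ⊆ D₀)
    (hs : ∀ j, ∃ f, P.Harm f (s j)) (ht : ∀ a, ∃ f, P.Harm f (t a))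
    (hvs : ∀ y ∈ HB z r, y 0 = 0 → ∀ j, s j (e y) = EuclideanSpace.single j 1)
    (hvt : ∀ y ∈ HB z r, y 0 = 0 → ∀ a,
      t a (e y) = EuclideanSpace.single j0 (y a : ℂ))
    (hpos : 0 < (pd 0 (fun y => t 0 (e y)) z j0).re) :
    ∃ (W : Model n N) (X Y : E n → E n) (S : E n → EndF N) (r₀ : ℝ), 0 < r₀ ∧
      ∀ r, 0 < r → r ≤ r₀ → ∃ D : Set (E n), BdM e L D₀ z r j0 W D X Y S s t := by
  have hD : RelOpen D₀ := b.rel
  have hlok : L.Ok D₀ := b.ok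
  have hsS : ∀ j, ContDiffOn ℝ ∞ (fun y => s j (e y)) D₀ := fun j => by
    obtain ⟨f, hf⟩ := hs j
    exact b.sm (s j) hf.smooth
  have hS : ContDiffOn ℝ ∞ (fun y => fr s (e y)) D₀ := fr_smooth hsS
  have hSv : ∀ v : Fib N, Sol L D₀ (fun x => fr s (e x) v) := by
    intro v
    obtain ⟨g, hg⟩ := cSetup_harm_sum P (fUniq n N M P hbd).2.1 hs v j0 Finset.univ
    have h1 := b.sol g _ hg
    have h2 : (fun y => (∑ j, v j • s j) (e y)) = fun x => fr s (e x) v := by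
      funext x
      rw [fr_apply, Finset.sum_apply]
      rfl
    rw [h2] at h1
    exact h1
  have hTs : ∀ a, Sol L D₀ (fun y => t a (e y)) := fun a => by
    obtain ⟨f, hf⟩ := ht a
    exact b.sol f _ hf
  have hzm := cSetup_mem_HB hz hr
  have hS1 : ∀ y ∈ HB z r, y 0 = 0 → fr s (e y) = 1 := fun y hy h0 =>
    fr_one s (e y) (hvs y hy h0)
  obtain ⟨hX, hdet, h00⟩ := cSetup_local (j0 := j0) (T := fun a y => t a (e y)) hD hS
    (fun a => (hTs a).1) hr hz hsub hS1 (fun y hy h0 a => hvt y hy h0 a) hpos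
  set X : E n → E n := Xco j0 (fun y => fr s (e y)) (fun a y => t a (e y)) with hXdef
  have hXz : X z = z := hX z hzm hz
  obtain ⟨Y, W, r₁, hr₁, hmod⟩ := bMod n N L D₀ j0 hD hlok (fun y => fr s (e y))
    (fun a y => t a (e y)) hS hSv hTs z (hsub hzm)
    (by show IsUnit (fr s (e z)); rw [hS1 z hzm hz]; exact isUnit_one) hdet
    (Or.inr ⟨hz, h00, r, hr, fun x hx h0 => by
      show X x 0 = 0
      rw [hX x hx h0, h0]⟩)
  rw [← hXdef, hXz] at hmod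
  obtain ⟨D1, hD1D, hD1r, hzD1, hpull1, -, -⟩ := hmod r₁ hr₁ le_rfl
  obtain ⟨O, hO, hDO⟩ := hD1r
  have hzO : z ∈ O := by
    have : z ∈ O ∩ Hs n := by rw [← hDO]; exact hzD1
    exact this.1
  obtain ⟨ε, hε, hεO⟩ := Metric.isOpen_iff.1 hO z hzO
  have hεD : HB z ε ⊆ D1 := by
    rw [hDO]
    exact inter_subset_inter_left _ hεO
  have hYflat : ∀ y, y ∈ HB z ε → y ∈ HB z r → y 0 = 0 → Y y = y := by
    intro y hy hy' h0
    have h1 := hpull1.diffeo.inv1 y (hεD hy)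
    rw [hX y hy' h0] at h1
    exact h1
  have hYz : Y z = z := hYflat z (cSetup_mem_HB hz hε) hzm hz
  have hYc : ContinuousWithinAt Y (HB z r₁) z :=
    hpull1.diffeo.smY.continuousOn z (cSetup_mem_HB hz hr₁)
  have hev : ∀ᶠ y in 𝓝[HB z r₁] z, Y y ∈ Metric.ball z r := by
    have h1 : Metric.ball z r ∈ 𝓝 (Y z) := by
      rw [hYz]
      exact Metric.ball_mem_nhds z hr
    exact hYc.eventually h1
  obtain ⟨δ, hδ, hδY⟩ := Metric.mem_nhdsWithin_iff.1 hev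
  refine ⟨W, X, Y, (fun y => fr s (e y)), min (min r r₁) (min ε δ), by (clear * - hr hr₁ hε hδ; positivity), ?_⟩
  intro ρ hρ hρle
  have hρr : ρ ≤ r := hρle.trans ((min_le_left _ _).trans (min_le_left _ _))
  have hρ1 : ρ ≤ r₁ := hρle.trans ((min_le_left _ _).trans (min_le_right _ _))
  have hρε : ρ ≤ ε := hρle.trans ((min_le_right _ _).trans (min_le_left _ _))
  have hρδ : ρ ≤ δ := hρle.trans ((min_le_right _ _).trans (min_le_right _ _))
  obtain ⟨D, hDD, hDr, hzD, hpull, hmodel, hcoord⟩ := hmod ρ hρ hρ1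
  have hmono : ∀ {a b : ℝ}, a ≤ b → HB z a ⊆ HB z b := fun hab =>
    inter_subset_inter_left _ (Metric.ball_subset_ball hab)
  refine ⟨D, ?_⟩
  refine
    { rel := hDr
      sub := hDD
      z0 := hz
      rpos := hρ
      pull := hpull
      model := hmodel
      bd := ?_
      bdD := ?_
      frame := fun x _ v => fr_apply s (e x) v
      coord := hcoord }
  · intro y hy h0
    have hyr := hmono hρr hy
    have hyY : Y y = y := hYflat y (hmono hρε hy) hyr h0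
    refine ⟨?_, hX y hyr h0, hyY, hS1 y hyr h0⟩
    have h1 := hpull.diffeo.mapsY hy
    rw [hyY] at h1
    exact h1
  · intro x hx h0
    have hXx : X x ∈ HB z ρ := hpull.diffeo.mapsX hx
    have hYX : Y (X x) = x := hpull.diffeo.inv1 x hx
    have hxb : x ∈ Metric.ball z r := by
      have h1 : X x ∈ Metric.ball z δ ∩ HB z r₁ :=
        ⟨Metric.ball_subset_ball hρδ hXx.1, hmono hρ1 hXx⟩
      have h2 : Y (X x) ∈ Metric.ball z r := hδY h1
      rw [hYX] at h2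
      exact h2
    have hxr : x ∈ HB z r := ⟨hxb, hDr.subset hx⟩
    rw [hX x hxr h0] at hXx
    exact hXx

end One

section Two

variable {n N : ℕ} [NeZero n] {M₁ M₂ : Type u}
  [TopologicalSpace M₁] [ChartedSpace (EuclideanHalfSpace n) M₁] [IsManifold (𝓡∂ n) ∞ M₁]
  [TopologicalSpace M₂] [ChartedSpace (EuclideanHalfSpace n) M₂] [IsManifold (𝓡∂ n) ∞ M₂]
  [MeasurableSpace M₁] [MeasurableSpace M₂]
  {P : One n N M₁} {Q : One n N M₂} {G : Gl M₁ M₂} {e₁ : E n → M₁} {e₂ : E n → M₂}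
  {L₁ L₂ : LD n N} {D₀ : Set (E n)}
  [T2Space M₁] [CompactSpace M₁] [ConnectedSpace M₁] [BorelSpace M₁]
  [T2Space M₂] [CompactSpace M₂] [ConnectedSpace M₂] [BorelSpace M₂]

/-- Both models near the boundary point. -/
theorem pcSetup (hP : PC P Q G e₁ e₂ L₁ L₂ D₀) (hG : G.Ok n N) (hS : SameD P Q G) (hn : 2 ≤ n)
    (hN : 0 < N) {z₀ : E n} (hz₀t : z₀ ∈ D₀) (hz₀0 : z₀ 0 = 0) :
    ∃ (j0 : Fin N) (z : E n) (r₀ : ℝ) (s : Fin N → (M₁ → Fib N) × (M₂ → Fib N))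
      (t : Fin n → (M₁ → Fib N) × (M₂ → Fib N)) (W₁ W₂ : Model n N) (X₁ Y₁ X₂ Y₂ : E n → E n)
      (S₁ S₂ : E n → EndF N), 0 < r₀ ∧ (∀ j, s j ∈ PP P Q G) ∧ (∀ a, t a ∈ PP P Q G) ∧
      ∀ r, 0 < r → r ≤ r₀ → ∃ D₁ D₂ : Set (E n),
        BdM e₁ L₁ D₀ z r j0 W₁ D₁ X₁ Y₁ S₁ (fun j => (s j).1) (fun a => (t a).1) ∧
        BdM e₂ L₂ D₀ z r j0 W₂ D₂ X₂ Y₂ S₂ (fun j => (s j).2) (fun a => (t a).2) := by
  obtain ⟨j0, z, r, s, t, hz, hr, hsub, hs, ht, hval, hp₁, hp₂⟩ :=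
    pcStart hP hG hS hn hN hz₀t hz₀0
  have hbd₁ : ((𝓡∂ n).boundary M₁).Nonempty := bne hG.rel₁ hG.ne₁
  have hbd₂ : ((𝓡∂ n).boundary M₂).Nonempty := bne hG.rel₂ hG.ne₂
  obtain ⟨W₁, X₁, Y₁, S₁, r₁, hr₁, h₁⟩ := pcSetup_one P hP.b1 hbd₁ j0 z r
    (fun j => (s j).1) (fun a => (t a).1) hz hr hsub
    (fun j => by obtain ⟨f, f', -, h, -⟩ := hs j; exact ⟨f, h⟩)
    (fun a => by obtain ⟨f, f', -, h, -⟩ := ht a; exact ⟨f, h⟩)
    (fun y hy h0 j => ((hval y hy h0).1 j).1) (fun y hy h0 a => ((hval y hy h0).2 a).1) hp₁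
  obtain ⟨W₂, X₂, Y₂, S₂, r₂, hr₂, h₂⟩ := pcSetup_one Q hP.b2 hbd₂ j0 z r
    (fun j => (s j).2) (fun a => (t a).2) hz hr hsub
    (fun j => by obtain ⟨f, f', -, -, h⟩ := hs j; exact ⟨f', h⟩)
    (fun a => by obtain ⟨f, f', -, -, h⟩ := ht a; exact ⟨f', h⟩)
    (fun y hy h0 j => ((hval y hy h0).1 j).2) (fun y hy h0 a => ((hval y hy h0).2 a).2) hp₂
  refine ⟨j0, z, min r₁ r₂, s, t, W₁, W₂, X₁, Y₁, X₂, Y₂, S₁, S₂, lt_min hr₁ hr₂, hs, ht, ?_⟩
  intro ρ hρ hle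
  obtain ⟨D₁, hD₁⟩ := h₁ ρ hρ (hle.trans (min_le_left _ _))
  obtain ⟨D₂, hD₂⟩ := h₂ ρ hρ (hle.trans (min_le_right _ _))
  exact ⟨D₁, D₂, hD₁, hD₂⟩

end Two


section R

variable {n N : ℕ} [NeZero n] {M : Type u}
  [TopologicalSpace M] [ChartedSpace (EuclideanHalfSpace n) M] [IsManifold (𝓡∂ n) ∞ M]
  [MeasurableSpace M]

theorem pcZ {P : One n N M} {e : E n → M} {L : LD n N} {D₀ : Set (E n)} (b : BC P e L D₀)
    {z : E n} {r₀ : ℝ} {j0 : Fin N} {W : Model n N} {D : Set (E n)} {X Y : E n → E n}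
    {S : E n → EndF N} {s : Fin N → M → Fib N} {t : Fin n → M → Fib N}
    (h : BdM e L D₀ z r₀ j0 W D X Y S s t) (r : ℝ) (hr₀ : r < r₀) (c : E n → Fib N)
    (hc : TstH z r c) :
    ∃ u : M → Fib N, SmS n u ∧ tsupport u ⊆ e '' D ∧
      (∀ x ∈ D, u (e x) = S x (CRel1_ext z r c (X x))) ∧
      ∀ y ∈ D₀, y 0 = 0 → u (e y) = CRel1_ext z r c y := by
  obtain ⟨hcs, r', hr', h0⟩ := id hc
  have hK0 : Metric.closedBall z r' ∩ Hs n ⊆ HB z r₀ := CRel1_cb_sub z (hr'.trans hr₀)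
  set K : Set (E n) := Y '' (Metric.closedBall z r' ∩ Hs n) with hK
  have hKc : IsCompact K :=
    (CRel1_cb_compact z r').image_of_continuousOn (h.pull.diffeo.smY.continuousOn.mono hK0)
  have hKD : K ⊆ D := by
    rintro x ⟨y, hy, rfl⟩
    exact h.pull.diffeo.mapsY (hK0 hy)
  have hzero : ∀ x ∈ D, x ∉ K → S x (CRel1_ext z r c (X x)) = 0 := by
    intro x hx hxK
    have hX := h.pull.diffeo.mapsX hx
    have h1 : X x ∉ Metric.closedBall z r' := by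
      intro h2
      exact hxK ⟨X x, ⟨h2, hX.2⟩, h.pull.diffeo.inv1 x hx⟩
    rw [CRel1_ext_zero h0 hX.2 h1, map_zero]
  have hsm : ContDiffOn ℝ ∞ (fun x => S x (CRel1_ext z r c (X x))) D :=
    smooth_eval h.pull.smS ((CRel1_ext_smooth (r₀ := r₀) hc).comp h.pull.diffeo.smX
      h.pull.diffeo.mapsX)
  obtain ⟨u, hu1, hu2, hu3, hu4⟩ := b.ext _ D K h.rel h.sub hsm hKc hKD hzero
  refine ⟨u, hu1, hu4.trans (image_mono hKD), hu2, ?_⟩
  intro y hy hy0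
  by_cases hyD : y ∈ D
  · obtain ⟨-, hXy, -, hSy⟩ := h.bd y (h.bdD y hyD hy0) hy0
    rw [hu2 y hyD, hXy, hSy]
    rfl
  · have h1 : u (e y) = 0 := by
      refine hu3 _ ?_
      rintro ⟨y', hy', he⟩
      exact hyD (b.inj (h.sub (hKD hy')) hy he ▸ hKD hy')
    rw [h1, CRel1_ext_out c]
    intro h2
    refine hyD (h.bd y ⟨Metric.ball_subset_ball hr₀.le h2, b.rel.subset hy⟩ hy0).1

variable [T2Space M] [CompactSpace M] [ConnectedSpace M] [BorelSpace M]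

theorem pcRel1 {P : One n N M} (hbne : ((𝓡∂ n).boundary M).Nonempty) {e : E n → M} {L : LD n N}
    {D₀ : Set (E n)} (b : BC P e L D₀)
    {z : E n} {r₀ : ℝ} {j0 : Fin N} {W : Model n N} {D : Set (E n)} {X Y : E n → E n}
    {S : E n → EndF N} {s : Fin N → M → Fib N} {t : Fin n → M → Fib N}
    (h : BdM e L D₀ z r₀ j0 W D X Y S s t) (r : ℝ) (hr : 0 < r) (hr₀ : r < r₀) :
    ∃ C : ℝ, 0 ≤ C ∧
      ∃ Z : (E n → Fib N) → M → Fib N,
        (∀ c, TstH z r c → SmS n (Z c) ∧ tsupport (Z c) ⊆ e '' D ∧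
          (∀ x ∈ D, Z c (e x) = S x (CRel1_ext z r c (X x))) ∧
          ∀ y ∈ D₀, y 0 = 0 → Z c (e y) = CRel1_ext z r c y) ∧
        (∀ c, TstH z r c → ∀ v : M → Fib N, SmS n v → ∀ d : E n → Fib N,
          ContDiffOn ℝ ∞ d (HB z r₀) → (∀ x ∈ D, v (e x) = S x (d (X x))) →
          P.E (Z c) v = En W.toLD (HB z r) c d) ∧
        ∀ c d, TstH z r c → TstH z r d →
          ∀ u v : M → Fib N, P.Harm (Z c) u → P.Harm (Z d) v →
            ‖En W.toLD (HB z r) c d - P.E u v‖ ≤ C * Rem W.toLD z r c * Rem W.toLD z r d ∧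
            (P.E u u).re ≤ (En W.toLD (HB z r) c c).re := by
  obtain ⟨-, -, hU3⟩ := fUniq n N M P hbne
  obtain ⟨hF1, hF2, hF3, hF4, hF5⟩ := fForm n N M P
  have hLq : L.Ok D := CHarm_ok_mono b.ok h.sub
  have hLW : W.toLD.Ok (HB z r₀) := h.model.ok
  obtain ⟨C, hC0, hC⟩ := CRel1_bound aGreen aHardy W.toLD z r r₀ h.z0 hLW hr hr₀
  choose! Z hZ using fun (c : E n → Fib N) (hc : TstH z r c) => pcZ b h r hr₀ c hc
  -- the energy identity
  have hEid : ∀ c, TstH z r c → ∀ v : M → Fib N, SmS n v → ∀ d : E n → Fib N,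
      ContDiffOn ℝ ∞ d (HB z r₀) → (∀ x ∈ D, v (e x) = S x (d (X x))) →
      P.E (Z c) v = En W.toLD (HB z r) c d := by
    intro c hc v hv d hd hvd
    obtain ⟨hZ1, hZ2, hZ3, -⟩ := hZ c hc
    rw [b.en D h.rel h.sub (Z c) v hZ1 hv (Or.inl hZ2)]
    have e1 : EqOn (fun y => Z c (e y)) (fun x => S x (CRel1_ext z r c (X x))) D := hZ3
    have e2 : EqOn (fun y => v (e y)) (fun x => S x (d (X x))) D := hvd
    rw [CRel1_En_congr h.rel _ e1 e2,
      bEnergy n N L W.toLD D (HB z r₀) X Y S h.rel (CRel1_rel z r₀) hLq hLW h.pull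
        (CRel1_ext z r c) d ((CRel1_ext_smooth hc).of_le (by norm_cast))
        (hd.of_le (by norm_cast)), CRel1_En_ext W.toLD hr₀.le hc d]
  refine ⟨C, hC0, Z, hZ, hEid, ?_⟩
  -- linearity
  have hzeroR : ∀ w : M → Fib N, SmS n w → P.E w 0 = 0 := by
    intro w hw
    have h1 := hF2 0 w w hw hw
    rw [zero_smul, zero_mul] at h1
    exact h1
  have hsm0 : SmS n (0 : M → Fib N) := contMDiff_const
  have hsub : ∀ {a b : M → Fib N}, SmS n a → SmS n b → SmS n (a - b) := fun ha hb => ha.sub hb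
  have haddL : ∀ a b w : M → Fib N, SmS n a → SmS n b → SmS n w →
      P.E (a + b) w = P.E a w + P.E b w := by
    intro a b w ha hb hw
    have hab : SmS n (a + b) := ha.add hb
    rw [hF3 w (a + b) hw hab, hF1 w a b hw ha hb, map_add, ← hF3 w a hw ha, ← hF3 w b hw hb]
  -- the remainder
  have hR : ∀ c, TstH z r c → ∀ u : M → Fib N, P.Harm (Z c) u →
      0 ≤ (P.E (Z c - u) (Z c - u)).re ∧
      (P.E (Z c - u) (Z c - u)).re ≤ C * Rem W.toLD z r c ^ 2 := by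
    intro c hc u hu
    obtain ⟨hZ1, hZ2, hZ3, hZ4⟩ := hZ c hc
    have hus : SmS n u := hu.smooth
    have hrs : SmS n (Z c - u) := hsub hZ1 hus
    have hrb : ∀ m ∈ (𝓡∂ n).boundary M, (Z c - u) m = 0 := by
      intro m hm
      rw [Pi.sub_apply, hu.boundary m hm, sub_self]
    have hur : P.E u (Z c - u) = 0 := by
      rw [(hU3 (Z c) u (Z c - u) 0 hu hrs hsm0 (fun m hm => hrb m hm)).1, hzeroR u hus]
    have hEw : P.E (Z c) (Z c - u) = P.E (Z c - u) (Z c - u) := by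
      have h1 := haddL (Z c - u) u (Z c - u) hrs hus hrs
      rw [sub_add_cancel, hur, add_zero] at h1
      exact h1
    set w : M → Fib N := Z c - u with hw
    have hlw : ContDiffOn ℝ ∞ (fun y => w (e y)) D := (b.sm w hrs).mono h.sub
    have he : ContDiffOn ℝ ∞ (fun y => Ring.inverse (S (Y y)) (w (e (Y y))))
        (HB z r₀) :=
      smooth_eval (smooth_ringInverse (h.pull.smS.comp h.pull.diffeo.smY h.pull.diffeo.mapsY)
        fun y hy => h.pull.unit _ (h.pull.diffeo.mapsY hy))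
        (hlw.comp h.pull.diffeo.smY h.pull.diffeo.mapsY)
    set e' : E n → Fib N := fun y => Ring.inverse (S (Y y)) (w (e (Y y))) with hedef
    have hle : ∀ x ∈ D, w (e x) = S x (e' (X x)) := by
      intro x hx
      have h1 : e' (X x) = Ring.inverse (S x) (w (e x)) := by
        rw [hedef]
        simp only [h.pull.diffeo.inv1 x hx]
      have h2 : S x * Ring.inverse (S x) = 1 := Ring.mul_inverse_cancel _ (h.pull.unit x hx)
      have h3 : S x (Ring.inverse (S x) (w (e x))) =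
          (S x * Ring.inverse (S x)) (w (e x)) := rfl
      rw [h1, h3, h2]
      rfl
    have he0 : ∀ y ∈ HB z r₀, y 0 = 0 → e' y = 0 := by
      intro y hy hy0
      obtain ⟨hyD, -, hYy, -⟩ := h.bd y hy hy0
      have hyt := h.sub hyD
      have hm : e y ∈ (𝓡∂ n).boundary M := (b.bd y hyt).2 hy0
      have h1 : w (e y) = 0 := hrb _ hm
      have h2 : e' y = Ring.inverse (S (Y y)) (w (e (Y y))) := rfl
      rw [h2, hYy, h1, map_zero]
    have hE2 : P.E (Z c) w = En W.toLD (HB z r) c e' := hEid c hc w hrs e' he hle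
    -- the energy of the remainder
    have hD' : RelOpen (D ∩ X ⁻¹' Metric.ball z r) :=
      CRel1_relX h.rel h.pull.diffeo.smX.continuousOn Metric.isOpen_ball
    have hD't : D ∩ X ⁻¹' Metric.ball z r ⊆ D₀ := inter_subset_left.trans h.sub
    have hE3 : En L (D ∩ X ⁻¹' Metric.ball z r) (fun y => w (e y)) (fun y => w (e y)) =
        En W.toLD (HB z r) e' e' := by
      have e1 : EqOn (fun y => w (e y)) (fun x => S x (e' (X x))) (D ∩ X ⁻¹' Metric.ball z r) :=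
        fun x hx => hle x hx.1
      have her : ContDiffOn ℝ 1 e' (HB z r) :=
        (he.mono (CRel1_HB_mono z hr₀.le)).of_le (by norm_cast)
      rw [CRel1_En_congr hD' _ e1 e1]
      exact bEnergy n N L W.toLD _ (HB z r) X Y S hD' (CRel1_rel z r)
        (CHarm_ok_mono hLq inter_subset_left) (CHarm_ok_mono hLW (CRel1_HB_mono z hr₀.le))
        (CRel1_pull hr₀.le h.pull) e' e' her her
    obtain ⟨hpos, hle1⟩ := b.en' _ hD' hD't w hrs
    rw [hE3] at hle1 hpos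
    have hb := hC c e' hc he he0 hpos
    refine ⟨hF4 w hrs, ?_⟩
    have h1 : (P.E w w).re ≤ ‖P.E w w‖ := Complex.re_le_norm _
    rw [← hEw, hE2] at h1
    have h2 : (P.E w w).re = (En W.toLD (HB z r) c e').re := by rw [← hEw, hE2]
    linarith
  intro c d hc hd u v hu hv
  obtain ⟨hZ1, hZ2, hZ3, hZ4⟩ := hZ c hc
  obtain ⟨hZ1', hZ2', hZ3', hZ4'⟩ := hZ d hd
  have key : ∀ c d, TstH z r c → TstH z r d → ∀ u v : M → Fib N, P.Harm (Z c) u →
      P.Harm (Z d) v → En W.toLD (HB z r) c d = P.E (Z c - u) (Z d - v) + P.E u v := by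
    intro c d hc hd u v hu hv
    obtain ⟨hZ1, hZ2, hZ3, hZ4⟩ := hZ c hc
    obtain ⟨hZ1', hZ2', hZ3', hZ4'⟩ := hZ d hd
    have hus : SmS n u := hu.smooth
    have hvs : SmS n v := hv.smooth
    have hrs : SmS n (Z c - u) := hsub hZ1 hus
    have hrs' : SmS n (Z d - v) := hsub hZ1' hvs
    have h1 := hEid c hc (Z d) hZ1' (CRel1_ext z r d) (CRel1_ext_smooth hd) hZ3'
    have h2 : En W.toLD (HB z r) c (CRel1_ext z r d) = En W.toLD (HB z r) c d :=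
      CRel1_En_congr (CRel1_rel z r) _ (fun _ _ => rfl) fun y hy => CRel1_ext_in d hy.1
    rw [← h2, ← h1]
    have h3 := haddL (Z c - u) u (Z d) hrs hus hZ1'
    rw [sub_add_cancel] at h3
    have h4 := hF1 (Z c - u) (Z d - v) v hrs hrs' hvs
    rw [sub_add_cancel] at h4
    have h5 := hF1 u (Z d - v) v hus hrs' hvs
    rw [sub_add_cancel] at h5
    have h6 : P.E u (Z d - v) = 0 := by
      rw [(hU3 (Z c) u (Z d - v) 0 hu hrs' hsm0 (fun m hm => by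
        rw [Pi.sub_apply, hv.boundary m hm, sub_self]; rfl)).1, hzeroR u hus]
    have h7 : P.E (Z c - u) v = 0 := by
      rw [(hU3 (Z d) v (Z c - u) 0 hv hrs hsm0 (fun m hm => by
        rw [Pi.sub_apply, hu.boundary m hm, sub_self]; rfl)).2, hF3 v 0 hvs hsm0, hzeroR v hvs,
        map_zero]
    rw [h3, h4, h5, h6, h7]
    ring
  refine ⟨?_, ?_⟩
  · rw [key c d hc hd u v hu hv, add_sub_cancel_right]
    have hrs : SmS n (Z c - u) := hsub hZ1 hu.smooth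
    have hrs' : SmS n (Z d - v) := hsub hZ1' hv.smooth
    have h1 := hF5 (Z c - u) (Z d - v) hrs hrs'
    obtain ⟨h2, h3⟩ := hR c hc u hu
    obtain ⟨h4, h5⟩ := hR d hd v hv
    have h6 : ‖P.E (Z c - u) (Z d - v)‖ ^ 2 ≤
        (C * Rem W.toLD z r c * Rem W.toLD z r d) ^ 2 := by
      refine h1.trans ((mul_le_mul h3 h5 h4 (h2.trans h3)).trans (le_of_eq ?_))
      ring
    have h7 : 0 ≤ C * Rem W.toLD z r c * Rem W.toLD z r d :=
      mul_nonneg (mul_nonneg hC0 (Real.sqrt_nonneg _)) (Real.sqrt_nonneg _)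
    have h8 := abs_le_of_sq_le_sq h6 h7
    rwa [abs_norm] at h8
  · rw [key c c hc hc u u hu hu, Complex.add_re]
    have := (hR c hc u hu).1
    linarith


end R

section One

variable {n N : ℕ} [NeZero n] {M : Type u}
  [TopologicalSpace M] [ChartedSpace (EuclideanHalfSpace n) M] [IsManifold (𝓡∂ n) ∞ M]
  [MeasurableSpace M]

/-- The section in the model which corresponds to `v`. -/
theorem pcSide {P : One n N M} {e : E n → M} {L : LD n N} {D₀ : Set (E n)} (b : BC P e L D₀)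
    {z : E n} {r₀ : ℝ} {j0 : Fin N} {W : Model n N} {D : Set (E n)} {X Y : E n → E n}
    {S : E n → EndF N} {s : Fin N → M → Fib N} {t : Fin n → M → Fib N}
    (hB : BdM e L D₀ z r₀ j0 W D X Y S s t) {f v : M → Fib N} (hv : P.Harm f v) :
    ContDiffOn ℝ ∞ (fun y => Ring.inverse (S (Y y)) (v (e (Y y)))) (HB z r₀) ∧
      (∀ x ∈ D, v (e x) = S x ((fun y => Ring.inverse (S (Y y)) (v (e (Y y)))) (X x))) ∧
      Sol W.toLD (HB z r₀) (fun y => Ring.inverse (S (Y y)) (v (e (Y y)))) := by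
  have hp := hB.pull
  have hd := hp.diffeo
  have hlu : Sol L D₀ (fun y => v (e y)) := b.sol f v hv
  have hsm : ContDiffOn ℝ ∞ (fun y => Ring.inverse (S (Y y)) (v (e (Y y)))) (HB z r₀) := by
    refine smooth_eval ?_ ((hlu.1.mono hB.sub).comp hd.smY hd.mapsY)
    exact smooth_ringInverse (hp.smS.comp hd.smY hd.mapsY) fun y hy => hp.unit _ (hd.mapsY hy)
  have heq : ∀ x ∈ D, v (e x) =
        S x ((fun y => Ring.inverse (S (Y y)) (v (e (Y y)))) (X x)) := by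
    intro x hx
    simp only
    rw [hd.inv1 x hx]
    have h1 : S x * Ring.inverse (S x) = 1 := Ring.mul_inverse_cancel _ (hp.unit x hx)
    have h2 := congrArg (fun T : EndF N => T (v (e x))) h1
    simp only [ContinuousLinearMap.mul_apply, ContinuousLinearMap.one_apply] at h2
    exact h2.symm
  refine ⟨hsm, heq, ?_⟩
  refine bSol n N L W.toLD D (HB z r₀) X Y S hB.rel (cERel_relOpen_HB z r₀)
    (cERel_okMono b.ok hB.sub) hB.model.ok hp _ ?_ hsm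
  exact cERel_sol_congr _ hB.rel (fun x hx => heq x hx) (cERel_solMono hlu hB.sub)

theorem pcH_eq {P : One n N M} {e : E n → M} {L : LD n N} {D₀ : Set (E n)} (b : BC P e L D₀)
    {z : E n} {r₀ : ℝ} {j0 : Fin N} {W : Model n N} {D : Set (E n)} {X Y : E n → E n}
    {S : E n → EndF N} {s : Fin N → M → Fib N} {t : Fin n → M → Fib N}
    (hB : BdM e L D₀ z r₀ j0 W D X Y S s t) {x : E n}
    (hx : x ∈ HB z r₀) (hx0 : x 0 = 0) : W.h x = 1 := by
  obtain ⟨h1, h2, h3, h4⟩ := hB.bd x hx hx0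
  have h := hB.pull.h_eq x h1
  rw [h2, h4, b.h1 x (hB.sub h1)] at h
  rw [← h]
  change ContinuousLinearMap.adjoint (1 : EndF N) * 1 * 1 = 1
  rw [mul_one, mul_one]
  exact ContinuousLinearMap.adjoint_id

end One

variable {n N : ℕ} [NeZero n] {M₁ M₂ : Type u}
  [TopologicalSpace M₁] [ChartedSpace (EuclideanHalfSpace n) M₁] [IsManifold (𝓡∂ n) ∞ M₁]
  [TopologicalSpace M₂] [ChartedSpace (EuclideanHalfSpace n) M₂] [IsManifold (𝓡∂ n) ∞ M₂]
  [MeasurableSpace M₁] [MeasurableSpace M₂]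
  {P : One n N M₁} {Q : One n N M₂} {G : Gl M₁ M₂} {e₁ : E n → M₁} {e₂ : E n → M₂}
  {L₁ L₂ : LD n N} {D₀ : Set (E n)}
  [T2Space M₁] [CompactSpace M₁] [ConnectedSpace M₁] [BorelSpace M₁]
  [T2Space M₂] [CompactSpace M₂] [ConnectedSpace M₂] [BorelSpace M₂]

theorem pcERel (hP : PC P Q G e₁ e₂ L₁ L₂ D₀) (hG : G.Ok n N) (hS : SameD P Q G)
    {z : E n} {r₀ : ℝ} {j0 : Fin N} {W₁ W₂ : Model n N} {D₁ D₂ : Set (E n)}
    {X₁ Y₁ X₂ Y₂ : E n → E n} {S₁ S₂ : E n → EndF N}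
    {s₁ : Fin N → M₁ → Fib N} {s₂ : Fin N → M₂ → Fib N} {t₁ : Fin n → M₁ → Fib N}
    {t₂ : Fin n → M₂ → Fib N}
    (hB₁ : BdM e₁ L₁ D₀ z r₀ j0 W₁ D₁ X₁ Y₁ S₁ s₁ t₁)
    (hB₂ : BdM e₂ L₂ D₀ z r₀ j0 W₂ D₂ X₂ Y₂ S₂ s₂ t₂)
    (r : ℝ) (hr : 0 < r) (hrr : r < r₀) :
    (∃ C : ℝ, ERel W₁.toLD W₂.toLD z r C) ∧
      ∀ u ∈ PP P Q G, ∀ x ∈ HB z r, x 0 = 0 →
        (fun y => Ring.inverse (S₁ (Y₁ y)) (u.1 (e₁ (Y₁ y)))) x =
          (fun y => Ring.inverse (S₂ (Y₂ y)) (u.2 (e₂ (Y₂ y)))) x ∧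
        flux W₁.toLD 0 (fun y => Ring.inverse (S₁ (Y₁ y)) (u.1 (e₁ (Y₁ y)))) x =
          flux W₂.toLD 0 (fun y => Ring.inverse (S₂ (Y₂ y)) (u.2 (e₂ (Y₂ y)))) x := by
  have hbd₁ : ((𝓡∂ n).boundary M₁).Nonempty := bne hG.rel₁ hG.ne₁
  have hbd₂ : ((𝓡∂ n).boundary M₂).Nonempty := bne hG.rel₂ hG.ne₂
  obtain ⟨C₁, hC₁, Z₁, hZ₁, hE₁, hR₁⟩ := pcRel1 hbd₁ hP.b1 hB₁ r hr hrr
  obtain ⟨C₂, hC₂, Z₂, hZ₂, hE₂, hR₂⟩ := pcRel1 hbd₂ hP.b2 hB₂ r hr hrr
  obtain ⟨hU, -, -⟩ := fUniq n N M₁ P hbd₁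
  obtain ⟨hU₂, -, -⟩ := fUniq n N M₂ Q hbd₂
  -- the two extensions are matched
  have hZZ : ∀ c, TstH z r c → MD n G (Z₁ c) (Z₂ c) := by
    intro c hc
    obtain ⟨a1, a2, a3, a4⟩ := hZ₁ c hc
    obtain ⟨c1, c2, c3, c4⟩ := hZ₂ c hc
    exact hP.md hG a1 c1 (a2.trans (image_mono hB₁.sub)) (c2.trans (image_mono hB₂.sub))
      fun y hy hy0 => by rw [a4 y hy hy0, c4 y hy hy0]
  have key : ∀ c d, TstH z r c → TstH z r d → ∃ (u₁ v₁ : M₁ → Fib N) (u₂ v₂ : M₂ → Fib N),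
      P.Harm (Z₁ c) u₁ ∧ P.Harm (Z₁ d) v₁ ∧ Q.Harm (Z₂ c) u₂ ∧ Q.Harm (Z₂ d) v₂ ∧
      P.E u₁ v₁ = Q.E u₂ v₂ := by
    intro c d hc hd
    obtain ⟨u₁, v₁, u₂, v₂, h1, h2, h3, h4, h5⟩ := hS _ _ _ _ (hZZ c hc) (hZZ d hd)
    exact ⟨u₁, v₁, u₂, v₂, h1, h2, h3, h4, h5⟩
  have hsub : HB z r ⊆ HB z r₀ := fun x hx => ⟨Metric.ball_subset_ball hrr.le hx.1, hx.2⟩
  refine ⟨⟨C₁ + C₂, ?_, ?_, ?_⟩, ?_⟩
  · intro c d hc hd
    obtain ⟨u₁, v₁, u₂, v₂, h1, h2, h3, h4, h5⟩ := key c d hc hd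
    have e1 := (hR₁ c d hc hd u₁ v₁ h1 h2).1
    have e2 := (hR₂ c d hc hd u₂ v₂ h3 h4).1
    have e3 : ‖En W₁.toLD (HB z r) c d - En W₂.toLD (HB z r) c d‖ ≤
        ‖En W₁.toLD (HB z r) c d - P.E u₁ v₁‖ + ‖En W₂.toLD (HB z r) c d - Q.E u₂ v₂‖ := by
      have : En W₁.toLD (HB z r) c d - En W₂.toLD (HB z r) c d =
          (En W₁.toLD (HB z r) c d - P.E u₁ v₁) - (En W₂.toLD (HB z r) c d - Q.E u₂ v₂) := by
        rw [h5]
        ring
      rw [this]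
      exact norm_sub_le _ _
    exact e3.trans (cERel_arith hC₁ hC₂ (cERel_rem_nonneg _ _ _ _) (cERel_rem_nonneg _ _ _ _)
      (cERel_rem_nonneg _ _ _ _) (cERel_rem_nonneg _ _ _ _) e1 e2)
  · intro c hc
    obtain ⟨u₁, v₁, u₂, v₂, h1, h2, h3, h4, h5⟩ := key c c hc hc
    have huv : v₁ = u₁ := hU _ _ _ _ h2 h1 fun x _ => rfl
    have e1 := (hR₁ c c hc hc u₁ v₁ h1 h2).2
    have e2 := (hR₂ c c hc hc u₂ v₂ h3 h4).1
    have e3 := (Complex.abs_re_le_norm _).trans e2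
    rw [Complex.sub_re, ← h5, huv] at e3
    have e4 := (abs_le.1 e3).2
    have e5 := mul_nonneg hC₁ (sq_nonneg (Rem W₂.toLD z r c))
    nlinarith
  · intro c hc
    obtain ⟨u₁, v₁, u₂, v₂, h1, h2, h3, h4, h5⟩ := key c c hc hc
    have huv : v₂ = u₂ := hU₂ _ _ _ _ h4 h3 fun x _ => rfl
    have e1 := (hR₂ c c hc hc u₂ v₂ h3 h4).2
    have e2 := (hR₁ c c hc hc u₁ v₁ h1 h2).1
    have e3 := (Complex.abs_re_le_norm _).trans e2
    rw [Complex.sub_re, h5, huv] at e3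
    have e4 := (abs_le.1 e3).2
    have e5 := mul_nonneg hC₂ (sq_nonneg (Rem W₁.toLD z r c))
    nlinarith
  · intro u hu x hx hx0
    obtain ⟨f, f', hf, hfu₁, hfu₂⟩ := id hu
    obtain ⟨s1, s2, s3⟩ := pcSide hP.b1 hB₁ hfu₁
    obtain ⟨t1, t2, t3⟩ := pcSide hP.b2 hB₂ hfu₂
    refine ⟨?_, ?_⟩
    · obtain ⟨a1, -, a3, a4⟩ := hB₁.bd x (hsub hx) hx0
      obtain ⟨-, -, b3, b4⟩ := hB₂.bd x (hsub hx) hx0
      have hxD := hB₁.sub a1
      simp only [a3, a4, b3, b4, Ring.inverse_one, ContinuousLinearMap.one_apply]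
      rw [hfu₁.boundary _ ((hP.b1.bd x hxD).2 hx0), hfu₂.boundary _ ((hP.b2.bd x hxD).2 hx0),
        hf.eq _ (hP.m2 x hxD hx0), hP.eq x hxD hx0]
    · refine aFlux n N W₁.toLD W₂.toLD z r hr hB₁.z0 (cERel_okMono hB₁.model.ok hsub)
        (cERel_okMono hB₂.model.ok hsub) ?_ _ _ (cERel_solMono s3 hsub) (cERel_solMono t3 hsub)
        ?_ x hx hx0
      · intro y hy hy0
        rw [pcH_eq hP.b1 hB₁ (hsub hy) hy0, pcH_eq hP.b2 hB₂ (hsub hy) hy0]
      · intro c hc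
        have hcH := cERel_tstH hc
        rw [← hE₁ c hcH u.1 hfu₁.smooth _ s1 s2, ← hE₂ c hcH u.2 hfu₂.smooth _ t1 t2]
        exact PC.dataE hG hS hu (hZZ c hcH)


end Vale.Agent.P088.R2.H509.S3
end
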